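import Vale.Agent.P269.G1.Alg

/-! Elementary identities in a `Frob` structure. -/

namespace Vale.Agent.P269.G1.H660

variable {R A O : Type*} [CommRing R] [Algebra ℚ R] [CommRing A] [Algebra R A]
    [Ring O] [Algebra R O] (S : Frob R A O)

theorem der_zero (x : A) : S.der x 0 = 0 := by
  have := S.der_add x 0 0; simpa using this

theorem der_neg (x : A) (f : R) : S.der x (-f) = - S.der x f := by
  have := S.der_add x f (-f)
  rw [add_neg_cancel, der_zero] at this
  exact (neg_eq_of_add_eq_zero_right this.symm).symm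

theorem der_sub (x : A) (f g : R) : S.der x (f - g) = S.der x f - S.der x g := by
  rw [sub_eq_add_neg, S.der_add, der_neg, sub_eq_add_neg]

theorem nab_sub (x y z : A) : S.nab x (y - z) = S.nab x y - S.nab x z := by
  have h := S.nab_add x (y - z) z
  rw [sub_add_cancel] at h
  rw [h]; ring

theorem nabO_zero (x : A) : S.nabO x 0 = 0 := by
  have := S.nabO_add x 0 0; simpa using this

theorem nabO_neg (x : A) (f : O) : S.nabO x (-f) = - S.nabO x f := by
  have := S.nabO_add x f (-f)
  rw [add_neg_cancel, nabO_zero] at this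
  exact (neg_eq_of_add_eq_zero_right this.symm).symm

theorem nabO_one (x : A) : S.nabO x 1 = 0 := by
  have := S.nabO_mul x 1 1
  simpa using this

theorem c4_comm12 (x y z : A) : S.c4 x y z = S.c4 y x z := S.c4_symm x y z

theorem c4_comm23 (x y z : A) : S.c4 x y z = S.c4 x z y := by
  unfold Frob.c4; rw [mul_comm y z]; ring

theorem c4_one (x y : A) : S.c4 x y 1 = 0 := by
  unfold Frob.c4; rw [S.nab_one]; simp

/-- `c4 x E y` -/
def Gam (x y : A) : A := x * S.d y + y * S.d x - S.d (x * y)

theorem c4_E' (x y : A) : S.c4 x S.E y = Gam S x y := S.c4_E x y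

theorem c4_xyE (x y : A) : S.c4 x y S.E = Gam S x y := by
  rw [c4_comm23, c4_E']

theorem c4_Exy (x y : A) : S.c4 S.E x y = Gam S x y := by
  rw [c4_comm12, c4_E']

theorem c4_assoc (v y z w : A) :
    S.c4 v (y * z) w + S.c4 v y z * w = S.c4 v y (z * w) + S.c4 v z w * y := by
  unfold Frob.c4
  rw [mul_assoc y z w]
  ring

theorem c5_comm12 (w x y z : A) : S.c5 w x y z = S.c5 x w y z := by
  have := S.c5_symm w x y z
  unfold Frob.c5 Frob.c4
  exact this

theorem c5_comm23 (w x y z : A) : S.c5 w x y z = S.c5 w y x z := by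
  unfold Frob.c5
  rw [c4_comm12 S x y z, c4_comm12 S (S.nab w x) y z, c4_comm12 S x (S.nab w y) z,
    c4_comm12 S x y (S.nab w z)]
  ring

theorem c5_comm34 (w x y z : A) : S.c5 w x y z = S.c5 w x z y := by
  unfold Frob.c5
  rw [c4_comm23 S x y z, c4_comm23 S (S.nab w x) y z, c4_comm23 S x (S.nab w y) z,
    c4_comm23 S x y (S.nab w z)]
  ring

theorem c4_sub_left (x x' y z : A) : S.c4 (x - x') y z = S.c4 x y z - S.c4 x' y z := by
  have h : ∀ a b z : A, S.nab (a - b) z = S.nab a z - S.nab b z := by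
    intro a b z
    have h := S.nab_add_left (a - b) b z
    rw [sub_add_cancel] at h
    rw [h]; ring
  unfold Frob.c4; rw [h, h, h]; ring

theorem nab_mul (v y z : A) : S.nab v (y * z) = S.c4 v y z + S.nab v y * z + y * S.nab v z := by
  unfold Frob.c4; ring

theorem c5_E (v y z : A) : S.c5 v S.E y z =
    S.c4 (S.d v) y z + S.c4 v (S.d y) z + S.c4 v y (S.d z) - S.d (S.c4 v y z) - S.c4 v y z := by
  have key : S.nab v (Gam S y z) = S.c4 v y (S.d z) + S.nab v y * S.d z + y * S.d (S.nab v z)
      + (S.c4 v z (S.d y) + S.nab v z * S.d y + z * S.d (S.nab v y))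
      - S.d (S.c4 v y z + S.nab v y * z + y * S.nab v z) := by
    unfold Gam
    rw [nab_sub, S.nab_add, S.nab_d, nab_mul, nab_mul, nab_mul, S.nab_d, S.nab_d]
  unfold Frob.c5
  rw [S.nab_E, c4_sub_left, c4_Exy, c4_Exy, c4_Exy, key, c4_comm23 S v z (S.d y)]
  unfold Gam
  rw [map_add, map_add]
  ring

/-- the 5-point tensor with two Euler fields -/
theorem c5_EE (y z : A) : S.c5 S.E S.E y z =
    S.c4 (S.d S.E) y z + Gam S (S.d y) z + Gam S y (S.d z) - S.d (Gam S y z) - Gam S y z := by
  rw [c5_E, c4_Exy, c4_Exy, c4_Exy]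

theorem c4O_comm (x y : A) : S.c4O x y = S.c4O y x := S.c4O_symm x y

/-- `c4O x E` -/
def D (x : A) : O := S.C x * S.mu - S.mu * S.C x + S.C (S.d x)

theorem c4O_E (x : A) : S.c4O x S.E = D S x := by
  unfold Frob.c4O D
  rw [S.nabO_U, S.nab_E, map_sub]
  abel

theorem c4O_Ex (x : A) : S.c4O S.E x = D S x := by rw [c4O_comm, c4O_E]

theorem c4O_add (x y z : A) : S.c4O x (y + z) = S.c4O x y + S.c4O x z := by
  unfold Frob.c4O
  rw [map_add, S.nabO_add, S.nab_add, map_add]; abel

theorem c4O_add_left (x y z : A) : S.c4O (x + y) z = S.c4O x z + S.c4O y z := by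
  rw [c4O_comm, c4O_add, c4O_comm S z x, c4O_comm S z y]

theorem c4O_mul (y z w : A) :
    S.c4O y (z * w) = S.c4O y z * S.C w + S.C z * S.c4O y w - S.C (S.c4 y z w) := by
  unfold Frob.c4O Frob.c4
  rw [map_mul, S.nabO_mul]
  simp only [map_sub, map_mul]
  noncomm_ring

theorem c4O_one (y : A) : S.c4O y 1 = 0 := by
  unfold Frob.c4O
  rw [map_one, nabO_one, S.nab_one, map_zero, sub_zero]

theorem c4O_one_left (y : A) : S.c4O 1 y = 0 := by rw [c4O_comm, c4O_one]

theorem c4O_Emul (y w : A) :
    S.c4O y (S.E * w) = D S y * S.C w + S.C S.E * S.c4O y w - S.C (Gam S y w) := by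
  rw [c4O_mul, c4O_E, c4_E']

theorem c4O_mulE_left (y w : A) :
    S.c4O (y * S.E) w = S.c4O y w * S.C S.E + S.C y * D S w - S.C (Gam S y w) := by
  rw [c4O_comm, c4O_mul, c4O_E, c4O_comm S w y, c4_comm12, c4_xyE]

theorem c4O_rec (y w : A) :
    S.c4O y (S.E * w) = S.c4O (y * S.E) w + D S y * S.C w - S.C y * D S w
      + (S.C S.E * S.c4O y w - S.c4O y w * S.C S.E) := by
  rw [c4O_Emul, c4O_mulE_left]; abel

/-- trace of multiplication -/
def th (x : A) : R := S.str (S.C x)

theorem th_add (x y : A) : th S (x + y) = th S x + th S y := by simp [th]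
theorem th_sub (x y : A) : th S (x - y) = th S x - th S y := by simp [th]
theorem th_neg (x : A) : th S (-x) = - th S x := by simp [th]
theorem th_zero : th S 0 = 0 := by simp [th]
theorem th_nsmul (n : ℕ) (x : A) : th S (n • x) = n • th S x := by
  unfold th; rw [map_nsmul, map_nsmul]
theorem th_sum {ι : Type*} (s : Finset ι) (f : ι → A) :
    th S (∑ i ∈ s, f i) = ∑ i ∈ s, th S (f i) := by simp [th]

theorem CC (x y : A) : S.C x * S.C y = S.C (x * y) := (map_mul _ _ _).symm

theorem CC_comm (x y : A) : S.C x * S.C y = S.C y * S.C x := by rw [CC, CC, mul_comm]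

theorem str_CD (x y : A) : S.str (S.C x * D S y) = th S (x * S.d y) := by
  unfold D th
  rw [mul_add, mul_sub, map_add, map_sub, CC S x (S.d y)]
  have h : S.str (S.C x * (S.mu * S.C y)) = S.str (S.C x * (S.C y * S.mu)) := by
    rw [← mul_assoc, S.str_comm, ← mul_assoc, ← mul_assoc, CC_comm S y x]
  rw [h]; ring

theorem str_DC (x y : A) : S.str (D S y * S.C x) = th S (x * S.d y) := by
  rw [S.str_comm, str_CD]

/-- Hessian of the trace -/
def Hth (x y : A) : R := S.str (S.c4O x y)

theorem Hth_comm (x y : A) : Hth S x y = Hth S y x := by unfold Hth; rw [c4O_comm]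

theorem Hth_add (x y z : A) : Hth S x (y + z) = Hth S x y + Hth S x z := by
  unfold Hth; rw [c4O_add, map_add]

theorem Hth_add_left (x y z : A) : Hth S (x + y) z = Hth S x z + Hth S y z := by
  unfold Hth; rw [c4O_add_left, map_add]

theorem Hth_one (x : A) : Hth S x 1 = 0 := by unfold Hth; rw [c4O_one, map_zero]

theorem Hth_E (x : A) : Hth S x S.E = th S (S.d x) := by
  unfold Hth; rw [c4O_E]
  have := str_CD S 1 x
  rwa [map_one, one_mul, one_mul] at this

theorem Hth_rec (y w : A) :
    Hth S y (S.E * w) = Hth S (y * S.E) w + th S (w * S.d y) - th S (y * S.d w) := by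
  unfold Hth
  rw [c4O_rec, map_add, map_sub, map_add, map_sub, str_DC, str_CD, S.str_comm (S.C S.E)]
  ring

theorem der_th (x y : A) : S.der x (th S y) = Hth S x y + th S (S.nab x y) := by
  unfold th Hth Frob.c4O
  rw [S.der_str, map_sub]; ring

end Vale.Agent.P269.G1.H660
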