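import Mathlib

/-! Sums over `Equiv.Perm (Fin 4)` and over antidiagonals. -/

namespace Vale.Agent.P269.G1.H660

open Equiv
open Finset.HasAntidiagonal (antidiagonal)

theorem sum_perm_succ {M : Type*} [AddCommMonoid M] {n : ℕ} (f : (Fin (n+1) → Fin (n+1)) → M) :
    ∑ σ : Equiv.Perm (Fin (n+1)), f σ =
      ∑ p : Fin (n+1), ∑ e : Equiv.Perm (Fin n), f (Fin.cons p fun i => swap 0 p (e i).succ) := by
  rw [← (Equiv.Perm.decomposeFin (n := n)).symm.sum_comp, Fintype.sum_prod_type]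
  refine Finset.sum_congr rfl fun p _ => Finset.sum_congr rfl fun e _ => ?_
  congr 1
  funext i
  refine Fin.cases ?_ (fun j => ?_) i
  · simp
  · simp

theorem sum_perm_two {M : Type*} [AddCommMonoid M] (f : Fin 2 → Fin 2 → M) :
    ∑ σ : Equiv.Perm (Fin 2), f (σ 0) (σ 1) = f 0 1 + f 1 0 := by
  have := sum_perm_succ (n := 1) (fun g => f (g 0) (g 1))
  rw [this]
  simp [Fin.sum_univ_two]

theorem sum_perm_three {M : Type*} [AddCommMonoid M] (f : Fin 3 → Fin 3 → Fin 3 → M) :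
    ∑ σ : Equiv.Perm (Fin 3), f (σ 0) (σ 1) (σ 2) = f 0 1 2 + f 0 2 1 + (f 1 0 2 + f 1 2 0) +
      (f 2 1 0 + f 2 0 1) := by
  have := sum_perm_succ (n := 2) (fun g => f (g 0) (g 1) (g 2))
  rw [this, Fin.sum_univ_three]
  congr 1
  · congr 1
    · exact sum_perm_two (fun a b => f 0 (swap 0 0 a.succ) (swap 0 0 b.succ))
    · exact sum_perm_two (fun a b => f 1 (swap 0 1 a.succ) (swap 0 1 b.succ))
  · exact sum_perm_two (fun a b => f 2 (swap 0 2 a.succ) (swap 0 2 b.succ))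

/-- a sum over the permutations of `Fin 4`, written out -/
theorem sum_perm_four {M : Type*} [AddCommMonoid M] (f : Fin 4 → Fin 4 → Fin 4 → Fin 4 → M) :
    ∑ σ : Equiv.Perm (Fin 4), f (σ 0) (σ 1) (σ 2) (σ 3) =
      (f 0 1 2 3 + f 0 1 3 2 + (f 0 2 1 3 + f 0 2 3 1) + (f 0 3 2 1 + f 0 3 1 2)) +
      (f 1 0 2 3 + f 1 0 3 2 + (f 1 2 0 3 + f 1 2 3 0) + (f 1 3 2 0 + f 1 3 0 2)) +
      (f 2 1 0 3 + f 2 1 3 0 + (f 2 0 1 3 + f 2 0 3 1) + (f 2 3 0 1 + f 2 3 1 0)) +
      (f 3 1 2 0 + f 3 1 0 2 + (f 3 2 1 0 + f 3 2 0 1) + (f 3 0 2 1 + f 3 0 1 2)) := by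
  have := sum_perm_succ (n := 3) (fun g => f (g 0) (g 1) (g 2) (g 3))
  rw [this, Fin.sum_univ_four]
  congr 1
  · congr 1
    · congr 1
      · exact sum_perm_three (fun a b c => f 0 (swap 0 0 a.succ) (swap 0 0 b.succ) (swap 0 0 c.succ))
      · exact sum_perm_three (fun a b c => f 1 (swap 0 1 a.succ) (swap 0 1 b.succ) (swap 0 1 c.succ))
    · exact sum_perm_three (fun a b c => f 2 (swap 0 2 a.succ) (swap 0 2 b.succ) (swap 0 2 c.succ))
  · exact sum_perm_three (fun a b c => f 3 (swap 0 3 a.succ) (swap 0 3 b.succ) (swap 0 3 c.succ))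

theorem tele {M : Type*} [AddCommGroup M] (g : ℕ → ℕ → M) (s : ℕ) :
    ∑ p ∈ antidiagonal s, (g p.1 (p.2 + 1) - g (p.1 + 1) p.2) = g 0 (s + 1) - g (s + 1) 0 := by
  have h1 := Finset.Nat.sum_antidiagonal_succ (n := s) (f := fun p => g p.1 p.2)
  have h2 := Finset.Nat.sum_antidiagonal_succ' (n := s) (f := fun p => g p.1 p.2)
  rw [Finset.sum_sub_distrib]
  rw [h1] at h2
  simp only at h2
  rw [sub_eq_sub_iff_add_eq_add]
  rw [h2]
  abel

theorem chain {M : Type*} [AddCommGroup M] (F B : ℕ → ℕ → M) (h0 : ∀ i, F i 0 = 0)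
    (h : ∀ i l, F i (l + 1) = F (i + 1) l + B i l) (n : ℕ) :
    F 0 (n + 1) = ∑ p ∈ antidiagonal n, B p.1 p.2 := by
  have h2 : ∀ n i, F i (n + 1) = ∑ p ∈ antidiagonal n, B (i + p.1) p.2 := by
    intro n
    induction n with
    | zero => intro i; simp [h, h0]
    | succ n ih =>
      intro i
      rw [h, ih, Finset.Nat.sum_antidiagonal_succ]
      simp only [add_zero]
      rw [add_comm]
      congr 1
      refine Finset.sum_congr rfl fun p _ => ?_
      congr 1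
      ring
  have := h2 n 0
  simpa using this

/-- Abel summation for a cocycle-like family -/
theorem abel_sum {M : Type*} [AddCommGroup M] (F B : ℕ → ℕ → M) (h0 : ∀ i, F i 0 = 0)
    (h : ∀ i l, F i (l + 1) = F (i + 1) l + B i l) (n : ℕ) :
    ∑ p ∈ antidiagonal (n + 1), F p.1 p.2 = ∑ p ∈ antidiagonal n, (p.1 + 1) • B p.1 p.2 := by
  induction n generalizing F B with
  | zero =>
    rw [Finset.Nat.sum_antidiagonal_succ]
    simp [h, h0]
  | succ n ih =>
    rw [Finset.Nat.sum_antidiagonal_succ]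
    rw [chain F B h0 h (n + 1)]
    have := ih (fun i l => F (i + 1) l) (fun i l => B (i + 1) l) (fun i => h0 _) (fun i l => h _ _)
    rw [this]
    have e : ∑ p ∈ antidiagonal (n + 1), p.1 • B p.1 p.2 =
        ∑ p ∈ antidiagonal n, (p.1 + 1) • B (p.1 + 1) p.2 := by
      rw [Finset.Nat.sum_antidiagonal_succ]
      simp
    rw [← e, ← Finset.sum_add_distrib]
    refine Finset.sum_congr rfl fun p _ => ?_
    rw [add_smul, one_smul, add_comm]

end Vale.Agent.P269.G1.H660
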