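import Vale.Agent.P269.G1.H660.Getz

/-! The part of Getzler's relation which contains the genus-one potential. -/

namespace Vale.Agent.P269.G1.H660

open Finset.HasAntidiagonal (antidiagonal)

variable {R A O : Type*} [CommRing R] [Algebra ℚ R] [CommRing A] [Algebra R A]
    [Ring O] [Algebra R O] (S : Frob R A O)

theorem H_one (x : A) : S.H x 1 = 0 := by
  unfold Frob.H
  rw [S.G_one, S.nab_one, der_zero, map_zero, sub_zero]

theorem H_E (x : A) : S.H x S.E = S.G (S.d x) - S.G x := by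
  unfold Frob.H
  rw [S.der_G_E, S.nab_E, map_sub]; ring

theorem nab_EE (x : A) : S.nab x (S.E * S.E) =
    x * S.d S.E - S.E * S.d x - S.d (x * S.E) + 2 * (x * S.E) := by
  rw [nab_mul, c4_E', S.nab_E]; unfold Gam; ring

theorem H_EE (x : A) : S.H x (S.E * S.E) = S.der x (S.G (S.E * S.E))
    - S.G (x * S.d S.E) + S.G (S.E * S.d x) + S.G (S.d (x * S.E)) - 2 * S.G (x * S.E) := by
  unfold Frob.H
  rw [nab_EE, map_add, map_sub, map_sub]
  have : S.G (2 * (x * S.E)) = 2 * S.G (x * S.E) := by rw [two_mul, two_mul, map_add]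
  rw [this]; ring

theorem G_natmul (n : ℕ) (a : A) : S.G ((n : A) * a) = (n : R) * S.G a := by
  rw [← nsmul_eq_mul, map_nsmul, nsmul_eq_mul]

/-- the combination of vector fields in the `G`-part -/
def T (x w : A) : A := x * S.E * S.d w + w * S.E * S.d x - w * S.d (x * S.E) - x * S.d (w * S.E)
  + S.d (x * w * S.E) + x * w * S.d S.E - S.E * S.d (x * w)

theorem c4_EE (x w : A) : S.c4 (S.E * S.E) x w =
    Gam S x (S.E * w) + Gam S x w * S.E - Gam S x S.E * w := by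
  have h := c4_assoc S x S.E S.E w
  rw [c4_comm12 S x (S.E * S.E) w] at h
  rw [c4_E', c4_E', c4_E'] at h
  rw [← h]; ring

theorem gpoint (x w : A) :
    - 4 * (2 * S.G (S.c4 (x * S.E) S.E w) + S.G (S.c4 (x * w) S.E S.E) + S.G (S.c4 (S.E * S.E) x w)
      + 2 * S.G (S.c4 (S.E * w) S.E x))
    + 12 * (S.G (S.c4 S.E S.E w * x) + 2 * S.G (S.c4 x S.E w * S.E) + S.G (S.c4 x S.E S.E * w)) =
    24 * S.G (T S x w) := by
  rw [c4_EE, c4_E', c4_E', c4_E', c4_E', c4_E', c4_E']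
  have h4 := G_natmul S 4 (2 * Gam S (x * S.E) w + Gam S (x * w) S.E
    + (Gam S x (S.E * w) + Gam S x w * S.E - Gam S x S.E * w) + 2 * Gam S (S.E * w) x)
  have h12 := G_natmul S 12 (Gam S S.E w * x + 2 * (Gam S x w * S.E) + Gam S x S.E * w)
  have h24 := G_natmul S 24 (T S x w)
  have h2 := G_natmul S 2 (Gam S (x * S.E) w)
  have h2' := G_natmul S 2 (Gam S (S.E * w) x)
  have h2'' := G_natmul S 2 (Gam S x w * S.E)
  have key : (24 : A) * T S x w = 12 * (Gam S S.E w * x + 2 * (Gam S x w * S.E) + Gam S x S.E * w)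
      - 4 * (2 * Gam S (x * S.E) w + Gam S (x * w) S.E
      + (Gam S x (S.E * w) + Gam S x w * S.E - Gam S x S.E * w) + 2 * Gam S (S.E * w) x) := by
    unfold T Gam
    have e1 : x * w * S.E = x * S.E * w := by ring
    have e2 : S.E * w * x = x * S.E * w := by ring
    have e3 : x * (S.E * w) = x * S.E * w := by ring
    rw [e1, e2, e3, mul_comm w S.E]
    ring
  push_cast at h4 h12 h24 h2 h2' h2''
  rw [map_add, map_add, map_add, h2, h2'] at h4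
  rw [map_add, map_add, h2''] at h12
  rw [key, map_sub, h4, h12] at h24
  linear_combination h24

theorem gsumH (s : ℕ) : ∑ p ∈ antidiagonal s,
    (2 * S.H (S.E ^ (p.1 + 1)) (S.E ^ (p.2 + 1)) - S.H (S.E ^ (p.1 + 2)) (S.E ^ p.2)
      - S.H (S.E ^ (p.2 + 2)) (S.E ^ p.1)) = 2 * S.H (S.E ^ (s + 1)) S.E := by
  have h1 : ∑ p ∈ antidiagonal s, S.H (S.E ^ (p.2 + 2)) (S.E ^ p.1) =
      ∑ p ∈ antidiagonal s, S.H (S.E ^ (p.1 + 2)) (S.E ^ p.2) :=
    Finset.Nat.sum_antidiagonal_swap (f := fun p : ℕ × ℕ => S.H (S.E ^ (p.1 + 2)) (S.E ^ p.2))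
  have h2 := tele (fun i l => S.H (S.E ^ (i + 1)) (S.E ^ l)) s
  rw [pow_zero, H_one, sub_zero, zero_add, pow_one, H_comm] at h2
  rw [Finset.sum_sub_distrib, Finset.sum_sub_distrib, h1, ← h2, ← Finset.mul_sum,
    Finset.sum_sub_distrib]
  ring

theorem gsumT (s : ℕ) : ∑ p ∈ antidiagonal s, T S (S.E ^ p.1) (S.E ^ p.2) =
    (s + 1) • (S.d (S.E ^ (s + 1)) + S.E ^ s * S.d S.E - S.E * S.d (S.E ^ s))
      - 2 • S.d (S.E ^ (s + 1)) := by
  have h0 : ∀ p ∈ antidiagonal s, T S (S.E ^ p.1) (S.E ^ p.2) =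
      ((S.E ^ (p.1 + 1) * S.d (S.E ^ p.2) - S.E ^ p.1 * S.d (S.E ^ (p.2 + 1)))
      + (S.E ^ (p.2 + 1) * S.d (S.E ^ p.1) - S.E ^ p.2 * S.d (S.E ^ (p.1 + 1))))
      + (S.d (S.E ^ (s + 1)) + S.E ^ s * S.d S.E - S.E * S.d (S.E ^ s)) := by
    intro p hp
    rw [Finset.HasAntidiagonal.mem_antidiagonal] at hp
    unfold T
    rw [← hp, ← pow_add, ← pow_succ, ← pow_succ, ← pow_succ]
    ring
  have h1 : ∑ p ∈ antidiagonal s, (S.E ^ (p.2 + 1) * S.d (S.E ^ p.1)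
      - S.E ^ p.2 * S.d (S.E ^ (p.1 + 1))) =
      ∑ p ∈ antidiagonal s, (S.E ^ (p.1 + 1) * S.d (S.E ^ p.2) - S.E ^ p.1 * S.d (S.E ^ (p.2 + 1))) :=
    Finset.Nat.sum_antidiagonal_swap
      (f := fun p : ℕ × ℕ => S.E ^ (p.1 + 1) * S.d (S.E ^ p.2) - S.E ^ p.1 * S.d (S.E ^ (p.2 + 1)))
  have h2 := tele (fun i l => S.E ^ i * S.d (S.E ^ l)) s
  rw [pow_zero, S.d_one, mul_zero, sub_zero, one_mul] at h2
  have h3 : ∑ p ∈ antidiagonal s,
      (S.E ^ (p.1 + 1) * S.d (S.E ^ p.2) - S.E ^ p.1 * S.d (S.E ^ (p.2 + 1))) =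
      - S.d (S.E ^ (s + 1)) := by
    rw [← h2, ← Finset.sum_neg_distrib]
    exact Finset.sum_congr rfl fun p _ => by ring
  rw [Finset.sum_congr rfl h0, Finset.sum_add_distrib, Finset.sum_add_distrib, h1, h3,
    Finset.sum_const, Finset.Nat.card_antidiagonal]
  rw [two_nsmul]
  abel

/-- the part with `G` -/
theorem gpart (s : ℕ) : ∑ p ∈ antidiagonal s,
    ((2 * S.H (S.E ^ p.1 * S.E) (S.E * S.E ^ p.2) + S.H (S.E ^ p.1 * S.E ^ p.2) (S.E * S.E)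
      - S.H (S.E ^ p.1 * S.E * S.E) (S.E ^ p.2)
      - S.H (S.E * S.E * S.E ^ p.2) (S.E ^ p.1) - 2 * S.H (S.E ^ p.1 * S.E * S.E ^ p.2) S.E)
      + S.G (T S (S.E ^ p.1) (S.E ^ p.2))) =
    (s + 1) * S.der (S.E ^ s) (S.G (S.E ^ 2)) - 2 * S.G (S.E ^ (s + 1)) := by
  have h0 : ∀ p ∈ antidiagonal s,
    ((2 * S.H (S.E ^ p.1 * S.E) (S.E * S.E ^ p.2) + S.H (S.E ^ p.1 * S.E ^ p.2) (S.E * S.E)
      - S.H (S.E ^ p.1 * S.E * S.E) (S.E ^ p.2)
      - S.H (S.E * S.E * S.E ^ p.2) (S.E ^ p.1) - 2 * S.H (S.E ^ p.1 * S.E * S.E ^ p.2) S.E)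
      + S.G (T S (S.E ^ p.1) (S.E ^ p.2))) =
      (2 * S.H (S.E ^ (p.1 + 1)) (S.E ^ (p.2 + 1)) - S.H (S.E ^ (p.1 + 2)) (S.E ^ p.2)
      - S.H (S.E ^ (p.2 + 2)) (S.E ^ p.1))
      + (S.H (S.E ^ s) (S.E * S.E) - 2 * S.H (S.E ^ (s + 1)) S.E)
      + S.G (T S (S.E ^ p.1) (S.E ^ p.2)) := by
    intro p hp
    rw [Finset.HasAntidiagonal.mem_antidiagonal] at hp
    have e1 : S.E ^ p.1 * S.E = S.E ^ (p.1 + 1) := by ring
    have e2 : S.E * S.E ^ p.2 = S.E ^ (p.2 + 1) := by ring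
    have e3 : S.E ^ p.1 * S.E ^ p.2 = S.E ^ s := by rw [← pow_add, hp]
    have e4 : S.E ^ p.1 * S.E * S.E = S.E ^ (p.1 + 2) := by ring
    have e5 : S.E * S.E * S.E ^ p.2 = S.E ^ (p.2 + 2) := by ring
    have e6 : S.E ^ p.1 * S.E * S.E ^ p.2 = S.E ^ (s + 1) := by rw [← hp]; ring
    rw [e4, e6, e5, e3, e1, e2]
    ring
  rw [Finset.sum_congr rfl h0, Finset.sum_add_distrib, Finset.sum_add_distrib, gsumH,
    Finset.sum_const, Finset.Nat.card_antidiagonal, ← map_sum, gsumT, map_sub, map_nsmul, map_nsmul,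
    map_sub, map_add, nsmul_eq_mul, nsmul_eq_mul, nsmul_eq_mul, H_E, H_EE]
  have e : S.E ^ s * S.E = S.E ^ (s + 1) := by ring
  have e' : S.E ^ 2 = S.E * S.E := by ring
  rw [e, e']
  push_cast
  ring

end Vale.Agent.P269.G1.H660
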