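import Vale.Agent.P269.G1.H660.Getz

/-! The part of Getzler's relation with traces. -/

namespace Vale.Agent.P269.G1.H660

open Finset.HasAntidiagonal (antidiagonal)

variable {R A O : Type*} [CommRing R] [Algebra ℚ R] [CommRing A] [Algebra R A]
    [Ring O] [Algebra R O] (S : Frob R A O)

/-- commutator with `mu` -/
def K (x : A) : O := S.C x * S.mu - S.mu * S.C x

theorem D_eq (x : A) : D S x = K S x + S.C (S.d x) := rfl

theorem Gam_comm (x y : A) : Gam S x y = Gam S y x := by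
  unfold Gam; rw [mul_comm x y]; ring

/-- the trace part of Getzler's relation -/
def Q (x w : A) : R := (Hth S x (Gam S S.E w) + 2 * th S (S.d (Gam S x w)) + Hth S w (Gam S x S.E))
    + th S (S.c5 S.E S.E x w)
    - 4 * S.str (D S x * D S w) - 2 * S.str (S.c4O x w * D S S.E)

theorem str_KC (x y : A) : S.str (K S x * S.C y) = 0 := by
  unfold K
  rw [sub_mul, map_sub]
  have h : S.str (S.mu * S.C x * S.C y) = S.str (S.C x * S.mu * S.C y) := by
    rw [mul_assoc, CC_comm, ← mul_assoc, S.str_comm, ← mul_assoc]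
  rw [h]; ring

theorem str_CK (x y : A) : S.str (S.C y * K S x) = 0 := by rw [S.str_comm, str_KC]

theorem str_DD (x w : A) : S.str (D S x * D S w) = S.str (K S x * K S w) + th S (S.d x * S.d w) := by
  rw [D_eq, D_eq]
  rw [add_mul, mul_add, mul_add, map_add, map_add, map_add, str_KC, str_CK, CC]
  unfold th; ring

/-- the words `mu x mu w` and `mu mu x w` -/
theorem str_KK (x w : A) : S.str (K S x * K S w) =
    2 * S.str (S.mu * S.C x * S.mu * S.C w) - 2 * S.str (S.mu * S.mu * S.C (x * w)) := by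
  unfold K
  have h1 : (S.C x * S.mu - S.mu * S.C x) * (S.C w * S.mu - S.mu * S.C w) =
      S.C x * S.mu * S.C w * S.mu - S.C x * S.mu * S.mu * S.C w
      - S.mu * S.C x * S.C w * S.mu + S.mu * S.C x * S.mu * S.C w := by noncomm_ring
  have h2 : S.str (S.C x * S.mu * S.C w * S.mu) = S.str (S.mu * S.C x * S.mu * S.C w) := by
    rw [S.str_comm (S.C x * S.mu * S.C w) S.mu]; simp only [mul_assoc]
  have h3 : S.str (S.C x * S.mu * S.mu * S.C w) = S.str (S.mu * S.mu * S.C (x * w)) := by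
    rw [S.str_comm (S.C x * S.mu * S.mu) (S.C w), S.str_comm (S.mu * S.mu), mul_comm x w, ← CC]
    simp only [mul_assoc]
  have h4 : S.str (S.mu * S.C x * S.C w * S.mu) = S.str (S.mu * S.mu * S.C (x * w)) := by
    rw [S.str_comm (S.mu * S.C x * S.C w) S.mu, ← CC]
    simp only [mul_assoc]
  rw [h1, map_add, map_sub, map_sub, h2, h3, h4]
  ring

theorem q8point (y w : A) : S.str (S.c4O y w * K S S.E) =
    -(S.str (S.c4O y (S.E * w) * S.mu) - S.str (S.c4O (y * S.E) w * S.mu))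
    + (S.str (D S y * S.C w * S.mu) - S.str (S.C y * D S w * S.mu)) := by
  have h := c4O_rec S y w
  have h2 : S.str (S.c4O y w * K S S.E) =
      - S.str ((S.C S.E * S.c4O y w - S.c4O y w * S.C S.E) * S.mu) := by
    unfold K
    rw [mul_sub, map_sub, sub_mul, map_sub]
    have : S.str (S.c4O y w * (S.mu * S.C S.E)) = S.str (S.C S.E * S.c4O y w * S.mu) := by
      rw [← mul_assoc, S.str_comm, mul_assoc]
    rw [this, ← mul_assoc]; ring
  rw [h2]
  have h3 : S.C S.E * S.c4O y w - S.c4O y w * S.C S.E =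
      S.c4O y (S.E * w) - S.c4O (y * S.E) w - D S y * S.C w + S.C y * D S w := by
    rw [h]; abel
  rw [h3, add_mul, sub_mul, sub_mul, map_add, map_sub, map_sub]
  ring

theorem q8point2 (y w : A) : S.str (D S y * S.C w * S.mu) - S.str (S.C w * D S y * S.mu) =
    S.str (K S y * K S w) := by
  rw [D_eq]
  have h1 : (K S y + S.C (S.d y)) * S.C w * S.mu - S.C w * (K S y + S.C (S.d y)) * S.mu =
      K S y * S.C w * S.mu - S.C w * K S y * S.mu := by
    rw [add_mul, add_mul, mul_add, add_mul, CC, CC, mul_comm (S.d y) w]; abel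
  rw [← map_sub, h1, map_sub]
  have h2 : K S y * K S w = K S y * S.C w * S.mu - K S y * S.mu * S.C w := by
    conv_lhs => rw [show K S w = S.C w * S.mu - S.mu * S.C w from rfl]
    noncomm_ring
  rw [h2, map_sub, S.str_comm (K S y * S.mu) (S.C w), mul_assoc (S.C w)]

theorem sumq8 (s : ℕ) : ∑ p ∈ antidiagonal s, S.str (S.c4O (S.E ^ p.1) (S.E ^ p.2) * K S S.E) =
    ∑ p ∈ antidiagonal s, S.str (K S (S.E ^ p.1) * K S (S.E ^ p.2)) := by
  have h2 := tele (fun i l => S.str (S.c4O (S.E ^ i) (S.E ^ l) * S.mu)) s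
  rw [pow_zero, c4O_one, c4O_one_left, zero_mul, map_zero, sub_zero] at h2
  have h3 : ∑ p ∈ antidiagonal s, S.str (S.C (S.E ^ p.1) * D S (S.E ^ p.2) * S.mu) =
      ∑ p ∈ antidiagonal s, S.str (S.C (S.E ^ p.2) * D S (S.E ^ p.1) * S.mu) :=
    Finset.Nat.sum_antidiagonal_swap
      (f := fun p : ℕ × ℕ => S.str (S.C (S.E ^ p.2) * D S (S.E ^ p.1) * S.mu))
  have h4 : ∀ p ∈ antidiagonal s, S.str (S.c4O (S.E ^ p.1) (S.E ^ p.2) * K S S.E) =
      -(S.str (S.c4O (S.E ^ p.1) (S.E ^ (p.2 + 1)) * S.mu)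
        - S.str (S.c4O (S.E ^ (p.1 + 1)) (S.E ^ p.2) * S.mu))
      + (S.str (D S (S.E ^ p.1) * S.C (S.E ^ p.2) * S.mu)
        - S.str (S.C (S.E ^ p.1) * D S (S.E ^ p.2) * S.mu)) := by
    intro p _
    rw [q8point, pow_succ', pow_succ]
  rw [Finset.sum_congr rfl h4, Finset.sum_add_distrib, Finset.sum_neg_distrib, h2,
    Finset.sum_sub_distrib, h3, ← Finset.sum_sub_distrib, neg_zero, zero_add]
  exact Finset.sum_congr rfl fun p _ => q8point2 S _ _

/-- the vector field `Z_k` -/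
def Z (k : ℕ) : A := (k + 1) • (S.E ^ k * S.d S.E) - S.d (S.E ^ (k + 1))

theorem Z_zero : Z S 0 = 0 := by
  unfold Z; simp

theorem Z_succ (k : ℕ) : Gam S S.E (S.E ^ (k + 1)) = Z S (k + 1) - Z S k * S.E := by
  unfold Z Gam
  rw [succ_nsmul (S.E ^ (k + 1) * S.d S.E) (k + 1), sub_mul, smul_mul_assoc]
  have e1 : S.E ^ k * S.d S.E * S.E = S.E ^ (k + 1) * S.d S.E := by ring
  have e2 : S.E * S.E ^ (k + 1) = S.E ^ (k + 1 + 1) := by ring
  rw [e1, e2]
  ring

theorem Hth_zero_left (x : A) : Hth S 0 x = 0 := by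
  have := Hth_add_left S 0 0 x
  simpa using this

theorem Hth_sub_left (x y z : A) : Hth S (x - y) z = Hth S x z - Hth S y z := by
  have := Hth_add_left S (x - y) y z
  rw [sub_add_cancel] at this
  rw [this]; ring

theorem Gam_E_one : Gam S S.E 1 = 0 := by
  unfold Gam; rw [S.d_one]; simp

theorem sumq1 (n : ℕ) : ∑ p ∈ antidiagonal (n + 1), Hth S (S.E ^ p.1) (Gam S S.E (S.E ^ p.2)) =
    ∑ p ∈ antidiagonal n, (th S (S.E ^ p.2 * S.d (Z S p.1)) - th S (Z S p.1 * S.d (S.E ^ p.2))) := by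
  have h1 : ∑ p ∈ antidiagonal (n + 1), Hth S (S.E ^ p.1) (Gam S S.E (S.E ^ p.2)) =
      ∑ p ∈ antidiagonal (n + 1), Hth S (S.E ^ p.2) (Gam S S.E (S.E ^ p.1)) :=
    Finset.Nat.sum_antidiagonal_swap
      (f := fun p : ℕ × ℕ => Hth S (S.E ^ p.2) (Gam S S.E (S.E ^ p.1)))
  rw [h1, Finset.Nat.sum_antidiagonal_succ]
  rw [pow_zero, Gam_E_one, Hth_comm, Hth_zero_left, zero_add]
  have h2 := tele (fun l i => Hth S (Z S l) (S.E ^ i)) n
  rw [Z_zero, Hth_zero_left, pow_zero, Hth_one, sub_zero] at h2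
  have h3 : ∀ p ∈ antidiagonal n, Hth S (S.E ^ p.2) (Gam S S.E (S.E ^ (p.1 + 1))) =
      -(Hth S (Z S p.1) (S.E ^ (p.2 + 1)) - Hth S (Z S (p.1 + 1)) (S.E ^ p.2))
      + (th S (S.E ^ p.2 * S.d (Z S p.1)) - th S (Z S p.1 * S.d (S.E ^ p.2))) := by
    intro p _
    rw [Hth_comm, Z_succ, Hth_sub_left, pow_succ', Hth_rec]
    ring
  rw [Finset.sum_congr rfl h3, Finset.sum_add_distrib, Finset.sum_neg_distrib, h2, neg_zero,
    zero_add]

/-- the final cancellation -/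
theorem point (k a : ℕ) :
    (k + 1) • th S (S.E ^ a * Gam S (S.d S.E) (S.E ^ k) - S.E ^ k * Gam S (S.d S.E) (S.E ^ a)) =
    (k + 1) • (th S (S.d S.E * (S.E ^ a * S.d (S.E ^ k))) - th S (S.d S.E * (S.E ^ k * S.d (S.E ^ a))))
    + (k + 1) • th S (S.E ^ k * S.d (S.d S.E * S.E ^ a) - S.E ^ k * S.d S.E * S.d (S.E ^ a))
    - (k + 1) • (th S (S.E ^ a * S.d (S.E ^ k * S.d S.E)) - th S (S.E ^ k * S.d S.E * S.d (S.E ^ a)))
    := by
  rw [← smul_add, ← smul_sub]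
  congr 1
  rw [← th_sub, ← th_sub, ← th_add, ← th_sub]
  congr 1
  unfold Gam
  rw [mul_comm (S.E ^ k) (S.d S.E)]
  ring

theorem sumq3 (n : ℕ) : ∑ p ∈ antidiagonal (n + 1), th S (S.c4 (S.d S.E) (S.E ^ p.1) (S.E ^ p.2)) =
    ∑ p ∈ antidiagonal n, (p.1 + 1) • th S (S.E ^ p.2 * Gam S (S.d S.E) (S.E ^ p.1)
      - S.E ^ p.1 * Gam S (S.d S.E) (S.E ^ p.2)) := by
  refine abel_sum (fun i l => th S (S.c4 (S.d S.E) (S.E ^ i) (S.E ^ l)))
    (fun k a => th S (S.E ^ a * Gam S (S.d S.E) (S.E ^ k) - S.E ^ k * Gam S (S.d S.E) (S.E ^ a)))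
    (fun i => ?_) (fun i l => ?_) n
  · simp only [pow_zero, c4_one, th_zero]
  · have h := c4_assoc S (S.d S.E) (S.E ^ i) S.E (S.E ^ l)
    rw [c4_xyE, c4_E', ← pow_succ, ← pow_succ'] at h
    rw [← th_add]
    congr 1
    linear_combination -h

theorem sumq9 (n : ℕ) : ∑ p ∈ antidiagonal (n + 1),
      S.str (S.c4O (S.E ^ p.1) (S.E ^ p.2) * S.C (S.d S.E)) =
    ∑ p ∈ antidiagonal n, (p.1 + 1) • (th S (S.d S.E * (S.E ^ p.2 * S.d (S.E ^ p.1)))
      - th S (S.d S.E * (S.E ^ p.1 * S.d (S.E ^ p.2)))) := by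
  refine abel_sum (fun i l => S.str (S.c4O (S.E ^ i) (S.E ^ l) * S.C (S.d S.E)))
    (fun k a => (th S (S.d S.E * (S.E ^ a * S.d (S.E ^ k)))
      - th S (S.d S.E * (S.E ^ k * S.d (S.E ^ a)))))
    (fun i => ?_) (fun i l => ?_) n
  · simp only [pow_zero, c4O_one, zero_mul, map_zero]
  · rw [pow_succ', pow_succ, c4O_rec, add_mul, sub_mul, add_mul, map_add, map_sub, map_add]
    have h1 : S.str (D S (S.E ^ i) * S.C (S.E ^ l) * S.C (S.d S.E)) =
        th S (S.d S.E * (S.E ^ l * S.d (S.E ^ i))) := by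
      rw [mul_assoc, CC, str_DC]; congr 1; ring
    have h2 : S.str (S.C (S.E ^ i) * D S (S.E ^ l) * S.C (S.d S.E)) =
        th S (S.d S.E * (S.E ^ i * S.d (S.E ^ l))) := by
      rw [S.str_comm, ← mul_assoc, CC, str_CD]; congr 1; ring
    have h3 : S.str ((S.C S.E * S.c4O (S.E ^ i) (S.E ^ l) - S.c4O (S.E ^ i) (S.E ^ l) * S.C S.E)
        * S.C (S.d S.E)) = 0 := by
      rw [sub_mul, map_sub]
      have : S.str (S.C S.E * S.c4O (S.E ^ i) (S.E ^ l) * S.C (S.d S.E)) =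
          S.str (S.c4O (S.E ^ i) (S.E ^ l) * S.C S.E * S.C (S.d S.E)) := by
        rw [mul_assoc, S.str_comm, mul_assoc, mul_assoc, CC_comm]
      rw [this]; ring
    rw [h1, h2, h3]; ring

theorem sumq10 (n : ℕ) : ∑ p ∈ antidiagonal (n + 1),
      S.str (S.C (S.E ^ p.1) * S.c4O (S.d S.E) (S.E ^ p.2)) =
    ∑ p ∈ antidiagonal n, (p.1 + 1) • th S (S.E ^ p.1 * S.d (S.d S.E * S.E ^ p.2)
      - S.E ^ p.1 * S.d S.E * S.d (S.E ^ p.2)) := by
  refine abel_sum (fun i l => S.str (S.C (S.E ^ i) * S.c4O (S.d S.E) (S.E ^ l)))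
    (fun k a => th S (S.E ^ k * S.d (S.d S.E * S.E ^ a) - S.E ^ k * S.d S.E * S.d (S.E ^ a)))
    (fun i => ?_) (fun i l => ?_) n
  · simp only [pow_zero, c4O_one, mul_zero, map_zero]
  · rw [pow_succ', pow_succ, c4O_Emul, mul_sub, mul_add, map_sub, map_add, CC]
    have h1 : S.str (S.C (S.E ^ i) * (D S (S.d S.E) * S.C (S.E ^ l))) =
        th S (S.E ^ i * S.E ^ l * S.d (S.d S.E)) := by
      rw [← mul_assoc, S.str_comm, ← mul_assoc, CC, str_CD, mul_comm (S.E ^ l)]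
    have h2 : S.str (S.C (S.E ^ i) * (S.C S.E * S.c4O (S.d S.E) (S.E ^ l))) =
        S.str (S.C (S.E ^ i * S.E) * S.c4O (S.d S.E) (S.E ^ l)) := by
      rw [← mul_assoc, CC]
    rw [h1, h2]
    have h3 : S.str (S.C (S.E ^ i * Gam S (S.d S.E) (S.E ^ l))) =
      th S (S.E ^ i * S.E ^ l * S.d (S.d S.E)) - th S (S.E ^ i * S.d (S.d S.E * S.E ^ l)
        - S.E ^ i * S.d S.E * S.d (S.E ^ l)) := by
      rw [← th_sub]
      show th S _ = _
      congr 1
      unfold Gam; ring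
    rw [h3]; ring

end Vale.Agent.P269.G1.H660
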