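import Vale.Agent.P269.G1.H660.Loop2

/-! **[ZF]** the loop term -/

namespace Vale.Agent.P269.G1.H660.Lp

open Finset.HasAntidiagonal (antidiagonal)
open Vale.Agent.P269.CI

variable {X : CompleteIntersection} {F : ℕ → ℕ → List (Ins X) → ℂ}

variable (hF : IsGW X F) (h1 : IsGenusOne F)

/-- the coefficient of the operators -/
noncomputable def ka (X : CompleteIntersection) (K m i : ℕ) (a : Ix X) : ℂ :=
  (-1) ^ (m + 1) * esym K i (mu X a - m - 1 / 2)

/-- sums with the coefficients of the operators -/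
noncomputable def Sm (K m i j : ℕ) (f : Ix X → Ix X → RR X) : RR X :=
  ∑ a, ∑ b, ∑ c, cs X (ka X K m i a * pairingInv X a b * c1pow X j a c) * f b c

theorem Sm_sub (K m i j : ℕ) (f g : Ix X → Ix X → RR X) :
    Sm K m i j (fun b c => f b c - g b c) = Sm K m i j f - Sm K m i j g := by
  unfold Sm
  simp only [mul_sub, Finset.sum_sub_distrib]

theorem mul_Sm (K m i j : ℕ) (r : RR X) (f : Ix X → Ix X → RR X) :
    r * Sm K m i j f = Sm K m i j (fun b c => r * f b c) := by
  unfold Sm
  simp only [Finset.mul_sum]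
  refine Finset.sum_congr rfl fun a _ => Finset.sum_congr rfl fun b _ =>
    Finset.sum_congr rfl fun c _ => ?_
  ring

/-- the two lowering terms -/
noncomputable def L1 (F : ℕ → ℕ → List (Ins X) → ℂ) (n m : ℕ) (b c : Ix X) : RR X :=
  if n = 0 then 0 else ∑ d, c1 X c d • W F (d, n - 1) (b, m)

/-- the two lowering terms -/
noncomputable def L2 (F : ℕ → ℕ → List (Ins X) → ℂ) (n m : ℕ) (b c : Ix X) : RR X :=
  if m = 0 then 0 else ∑ d, c1 X b d • W F (c, n) (d, m - 1)

include hF h1 in
/-- the Euler equation under the sum -/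
theorem euler_sum (K m i n q : ℕ) (hq : n + m + i + 1 = q) :
    ((q : ℕ) : RR X) * Sm K m i i (fun b c => W F (c, n) (b, m)) =
      Sm K m i i (fun b c => ∑ x, Eu hF h1 x * ser (cor F 0 [hpow X x, (c, n), (b, m)])) -
        Sm K m i i (L1 F n m) - Sm K m i i (L2 F n m) := by
  rw [mul_Sm, ← Sm_sub, ← Sm_sub]
  unfold Sm
  refine Finset.sum_congr rfl fun a _ => Finset.sum_congr rfl fun b _ =>
    Finset.sum_congr rfl fun c _ => ?_
  by_cases hb : pairingInv X a b = 0
  · rw [hb]; simp
  by_cases hc : c1pow X i a c = 0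
  · rw [hc]; simp
  congr 1
  have mb := pairingInv_mu X hb
  have mc := c1pow_mu X hc
  have hW := W_euler hF h1 c b n m
  change ((q : ℕ) : RR X) * W F (c, n) (b, m) =
    (∑ x, Eu hF h1 x * ser (cor F 0 [hpow X x, (c, n), (b, m)])) - L1 F n m b c - L2 F n m b c
  rw [hW]
  have e1 : ((n + m + 1 : ℕ) : ℂ) + mu X c + mu X b = (q : ℂ) := by
    rw [← hq]
    push_cast
    linear_combination mb + mc
  have e2 : (if n = 0 ∧ m = 0 then cst X (∑ d, c1 X c d * pairing X d b) else 0) = (0 : RR X) := by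
    split_ifs
    · rw [Finset.sum_eq_zero, cst_eq, map_zero]
      intro d _
      by_contra h
      have md := c1_mu X (left_ne_zero_of_mul h)
      have mp := pairing_mu X (right_ne_zero_of_mul h)
      have : ((i + 1 : ℕ) : ℂ) = 0 := by
        push_cast
        linear_combination mp - md - mc - mb + 0 * mb
      exact Nat.succ_ne_zero i (by exact_mod_cast this)
    · rfl
  rw [e1, e2, smul_cs]
  unfold L1 L2
  rw [map_natCast]
  ring

theorem sum_L1 (K m i n : ℕ) (hn : n ≠ 0) : Sm K m i i (L1 F n m) =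
    Sm K m i (i + 1) (fun b c => W F (c, n - 1) (b, m)) := by
  unfold Sm L1
  refine Finset.sum_congr rfl fun a _ => Finset.sum_congr rfl fun b _ => ?_
  simp only [if_neg hn]
  calc ∑ c, cs X (ka X K m i a * pairingInv X a b * c1pow X i a c) *
        ∑ d, c1 X c d • W F (d, n - 1) (b, m)
      = ∑ c, ∑ d, cs X (ka X K m i a * pairingInv X a b) *
          (cs X (c1pow X i a c * c1 X c d) * W F (d, n - 1) (b, m)) := by
        refine Finset.sum_congr rfl fun c _ => ?_
        rw [Finset.mul_sum]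
        refine Finset.sum_congr rfl fun d _ => ?_
        rw [smul_cs]
        simp only [map_mul]
        ring
    _ = ∑ d, cs X (ka X K m i a * pairingInv X a b * c1pow X (i + 1) a d) *
          W F (d, n - 1) (b, m) := by
        rw [Finset.sum_comm]
        refine Finset.sum_congr rfl fun d _ => ?_
        rw [← Finset.mul_sum, ← Finset.sum_mul, ← map_sum, ← mul_assoc, ← map_mul, c1pow_succ]

theorem ka_succ (K m i : ℕ) {a b : Ix X} (h : c1 X b a ≠ 0) :
    ka X K (m + 1) i a = - ka X K m i b := by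
  unfold ka
  rw [c1_mu X h]
  have : mu X b + 1 - ((m + 1 : ℕ) : ℂ) - 1 / 2 = mu X b - m - 1 / 2 := by
    push_cast; ring
  rw [this, pow_succ]
  ring

theorem sum_L2 (K m i n : ℕ) : Sm K (m + 1) i i (L2 F n (m + 1)) =
    - Sm K m i (i + 1) (fun b c => W F (c, n) (b, m)) := by
  have h0 : ∀ b c, L2 F n (m + 1) b c = ∑ d, cs X (c1 X b d) * W F (c, n) (d, m) := by
    intro b c
    unfold L2
    rw [if_neg (Nat.succ_ne_zero m), Nat.add_sub_cancel]
    exact Finset.sum_congr rfl fun d _ => smul_cs _ _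
  unfold Sm
  simp only [h0]
  calc ∑ a, ∑ b, ∑ c, cs X (ka X K (m + 1) i a * pairingInv X a b * c1pow X i a c) *
        ∑ d, cs X (c1 X b d) * W F (c, n) (d, m)
      = ∑ a, ∑ d, ∑ c, cs X (ka X K (m + 1) i a * c1pow X i a c *
          ∑ b, pairingInv X a b * c1 X b d) * W F (c, n) (d, m) := by
        refine Finset.sum_congr rfl fun a _ => ?_
        simp only [Finset.mul_sum, map_sum, Finset.sum_mul]
        rw [Finset.sum_comm]
        conv_lhs => enter [2, c]; rw [Finset.sum_comm]
        rw [Finset.sum_comm]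
        refine Finset.sum_congr rfl fun d _ => Finset.sum_congr rfl fun c _ =>
          Finset.sum_congr rfl fun b _ => ?_
        simp only [map_mul]
        ring
    _ = ∑ a, ∑ d, ∑ c, ∑ b, cs X (ka X K (m + 1) i a * c1pow X i a c *
          (pairingInv X b d * c1 X b a)) * W F (c, n) (d, m) := by
        refine Finset.sum_congr rfl fun a _ => Finset.sum_congr rfl fun d _ =>
          Finset.sum_congr rfl fun c _ => ?_
        rw [pInv_c1, Finset.mul_sum, map_sum, Finset.sum_mul]
    _ = ∑ b, ∑ d, ∑ c, ∑ a, - (cs X (ka X K m i b * pairingInv X b d *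
          (c1 X b a * c1pow X i a c)) * W F (c, n) (d, m)) := by
        conv_lhs => enter [2, a, 2, d]; rw [Finset.sum_comm]
        conv_lhs => enter [2, a]; rw [Finset.sum_comm]
        rw [Finset.sum_comm]
        refine Finset.sum_congr rfl fun b _ => ?_
        rw [Finset.sum_comm]
        refine Finset.sum_congr rfl fun d _ => ?_
        rw [Finset.sum_comm]
        refine Finset.sum_congr rfl fun c _ => Finset.sum_congr rfl fun a _ => ?_
        by_cases h : c1 X b a = 0
        · rw [h]; simp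
        · rw [ka_succ K m i h, ← neg_mul, ← map_neg]
          congr 2
          ring
    _ = - ∑ a, ∑ b, ∑ c, cs X (ka X K m i a * pairingInv X a b * c1pow X (i + 1) a c) *
          W F (c, n) (b, m) := by
        rw [← Finset.sum_neg_distrib]
        refine Finset.sum_congr rfl fun a _ => ?_
        rw [← Finset.sum_neg_distrib]
        refine Finset.sum_congr rfl fun b _ => ?_
        rw [← Finset.sum_neg_distrib]
        refine Finset.sum_congr rfl fun c _ => ?_
        rw [Finset.sum_neg_distrib, c1pow_succ', Finset.mul_sum, map_sum, Finset.sum_mul]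

/-- the lowering sums cancel -/
theorem cancel (F : ℕ → ℕ → List (Ins X) → ℂ) (K q : ℕ) :
    ∑ m ∈ Finset.range q, ∑ i ∈ Finset.range (q - m),
      (Sm K m i i (L1 F (q - 1 - m - i) m) + Sm K m i i (L2 F (q - 1 - m - i) m)) = 0 := by
  rcases q with _ | q
  · simp
  simp only [Finset.sum_add_distrib]
  have e1 : ∑ m ∈ Finset.range (q + 1), ∑ i ∈ Finset.range (q + 1 - m),
      Sm K m i i (L1 F (q + 1 - 1 - m - i) m) =
      ∑ m ∈ Finset.range q, ∑ i ∈ Finset.range (q - m),
        Sm K m i (i + 1) (fun b c => W F (c, q - 1 - m - i) (b, m)) := by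
    have z : ∀ m i, q - m - i = 0 → Sm K m i i (L1 F (q + 1 - 1 - m - i) m) = 0 := by
      intro m i h
      have : q + 1 - 1 - m - i = 0 := by omega
      rw [this]
      unfold Sm L1
      simp
    rw [Finset.sum_range_succ]
    have e : ∑ i ∈ Finset.range (q + 1 - q), Sm K q i i (L1 F (q + 1 - 1 - q - i) q) = 0 :=
      Finset.sum_eq_zero fun i _ => z q i (by omega)
    rw [e, add_zero]
    refine Finset.sum_congr rfl fun m hm => ?_
    have hm' := Finset.mem_range.1 hm
    rw [show q + 1 - m = (q - m) + 1 from by omega, Finset.sum_range_succ,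
      z m (q - m) (by omega), add_zero]
    refine Finset.sum_congr rfl fun i hi => ?_
    have hi' := Finset.mem_range.1 hi
    rw [sum_L1 K m i _ (by omega), show q + 1 - 1 - m - i - 1 = q - 1 - m - i from by omega]
  have e2 : ∑ m ∈ Finset.range (q + 1), ∑ i ∈ Finset.range (q + 1 - m),
      Sm K m i i (L2 F (q + 1 - 1 - m - i) m) =
      - ∑ m ∈ Finset.range q, ∑ i ∈ Finset.range (q - m),
        Sm K m i (i + 1) (fun b c => W F (c, q - 1 - m - i) (b, m)) := by
    rw [Finset.sum_range_succ']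
    have e : ∑ i ∈ Finset.range (q + 1 - 0), Sm K 0 i i (L2 F (q + 1 - 1 - 0 - i) 0) = 0 := by
      refine Finset.sum_eq_zero fun i _ => ?_
      unfold Sm L2
      simp
    rw [e, add_zero, ← Finset.sum_neg_distrib]
    refine Finset.sum_congr rfl fun m _ => ?_
    rw [← Finset.sum_neg_distrib, show q + 1 - (m + 1) = q - m from by omega]
    refine Finset.sum_congr rfl fun i _ => ?_
    rw [sum_L2, show q + 1 - 1 - (m + 1) - i = q - 1 - m - i from by omega]
  rw [e1, e2, add_neg_cancel]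

theorem loopS_eq (q : ℕ) : loopS F (q + 1) = (1 / 2 : ℂ) • ∑ m ∈ Finset.range q,
    ∑ i ∈ Finset.range (q - m), Sm (q + 1) m i i (fun b c => W F (c, q - 1 - m - i) (b, m)) := by
  unfold loopS Sm
  congr 1
  rw [show q + 1 - 1 = q from rfl]
  refine Finset.sum_congr rfl fun m _ => Finset.sum_congr rfl fun i _ =>
    Finset.sum_congr rfl fun a _ => Finset.sum_congr rfl fun b _ =>
    Finset.sum_congr rfl fun c _ => ?_
  rw [smul_cs, show q + 1 - 2 - m - i = q - 1 - m - i from by omega]
  rfl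

/-- one term of the trace -/
theorem E_eq (q m i n : ℕ) :
    Sm (q + 1) m i i (fun b c => ∑ x, Eu hF h1 x * ser (cor F 0 [hpow X x, (c, n), (b, m)])) =
      (-1) ^ (m + 1) * strO hF h1 (CC hF h1 (Eu hF h1) *
        (SS hF h1 n * Rcl hF h1 ^ i * ee hF h1 (-1 - (m : ℤ)) (q + 1) i * ST hF h1 m)) := by
  unfold ee
  rw [str_part]
  unfold Sm
  rw [Finset.mul_sum]
  refine Finset.sum_congr rfl fun a _ => ?_
  rw [Finset.mul_sum]
  refine Finset.sum_congr rfl fun b _ => ?_
  rw [Finset.mul_sum]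
  refine Finset.sum_congr rfl fun c _ => ?_
  rw [← mul_assoc]
  congr 1
  have e : ((-1) ^ (m + 1) : RR X) = cs X ((-1) ^ (m + 1)) := by
    rw [map_pow, map_neg, map_one]
  rw [e, ← map_mul]
  congr 1
  unfold ka
  have e2 : mu X a - (m : ℂ) - 1 / 2 = mu X a + (((-1 - (m : ℤ) : ℤ)) : ℂ) + 1 / 2 := by
    push_cast; ring
  rw [e2]
  ring

theorem SZ_neg (n : ℤ) (h : n < 0) : SZ hF h1 n = 0 := by
  unfold SZ; rw [if_pos h]

theorem SZ_nat (n : ℕ) : SZ hF h1 (n : ℤ) = SS hF h1 n := by
  unfold SZ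
  rw [if_neg (by omega), Int.toNat_natCast]

theorem aK_eq (q m : ℕ) (hm : m < q) :
    aK (SZ hF h1) (Rcl hF h1) (ee hF h1) (-1 - (m : ℤ)) (q + 1) 1 =
      ∑ i ∈ Finset.range (q - m), SS hF h1 (q - 1 - m - i) * Rcl hF h1 ^ i *
        ee hF h1 (-1 - (m : ℤ)) (q + 1) i := by
  unfold aK
  symm
  have hs : Finset.range (q - m) ⊆ Finset.range (q + 1 + 1) := by
    intro x hx
    rw [Finset.mem_range] at hx ⊢
    omega
  rw [← Finset.sum_subset hs]
  · refine Finset.sum_congr rfl fun i hi => ?_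
    have hi' := Finset.mem_range.1 hi
    have : (-1 - (m : ℤ)) + ((q + 1 : ℕ) : ℤ) - (i : ℤ) - 1 = ((q - 1 - m - i : ℕ) : ℤ) := by
      omega
    rw [this, SZ_nat]
  · intro i _ hi
    have hi' : ¬ i < q - m := fun h => hi (Finset.mem_range.2 h)
    rw [SZ_neg hF h1 _ (by push_cast; omega), zero_mul, zero_mul]

theorem str_neg_pow (n : ℕ) (U Y : OO hF h1) :
    strO hF h1 (U * ((-1) ^ n * Y)) = (-1) ^ n * strO hF h1 (U * Y) := by
  rcases neg_one_pow_eq_or (OO hF h1) n with h | h
  · rcases Nat.even_or_odd n with hn | hn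
    · rw [hn.neg_one_pow, hn.neg_one_pow, one_mul, one_mul]
    · rw [hn.neg_one_pow, hn.neg_one_pow, neg_one_mul, neg_one_mul, mul_neg, map_neg]
  · rcases Nat.even_or_odd n with hn | hn
    · rw [hn.neg_one_pow, hn.neg_one_pow, one_mul, one_mul]
    · rw [hn.neg_one_pow, hn.neg_one_pow, neg_one_mul, neg_one_mul, mul_neg, map_neg]

/-- **[ZF]** -/
theorem loop_eq (q : ℕ) : ((q : ℕ) : RR X) * loopS F (q + 1) =
    - ((1 / 2 : ℂ) • strO hF h1 (CC hF h1 (Eu hF h1) *
      DD (RR X) (CC hF h1 (Eu hF h1)) (muO hF h1) (-1) (q + 1) 1)) := by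
  have hc := conj_X hF h1 (-1) 1 (q + 1) q (by push_cast; omega)
  rw [← hc]
  have hs : strO hF h1 (CC hF h1 (Eu hF h1) * ∑ n ∈ Finset.range q, (-1) ^ n *
      (aK (SZ hF h1) (Rcl hF h1) (ee hF h1) (-1 - n) (q + 1) 1 * ST hF h1 n)) =
      ∑ n ∈ Finset.range q, strO hF h1 (CC hF h1 (Eu hF h1) * ((-1) ^ n *
      (aK (SZ hF h1) (Rcl hF h1) (ee hF h1) (-1 - n) (q + 1) 1 * ST hF h1 n))) := by
    rw [Finset.mul_sum, map_sum]
  rw [hs, loopS_eq, smul_cs, smul_cs]
  have e1 : ((q : ℕ) : RR X) * (cs X (1 / 2) * ∑ m ∈ Finset.range q,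
      ∑ i ∈ Finset.range (q - m), Sm (q + 1) m i i (fun b c => W F (c, q - 1 - m - i) (b, m))) =
      cs X (1 / 2) * (∑ m ∈ Finset.range q, ∑ i ∈ Finset.range (q - m),
        Sm (q + 1) m i i (fun b c => ∑ x, Eu hF h1 x *
          ser (cor F 0 [hpow X x, (c, q - 1 - m - i), (b, m)]))) := by
    have h := cancel F (q + 1) q
    have e2 : ((q : ℕ) : RR X) * ∑ m ∈ Finset.range q,
        ∑ i ∈ Finset.range (q - m), Sm (q + 1) m i i (fun b c => W F (c, q - 1 - m - i) (b, m)) =
        ∑ m ∈ Finset.range q, ∑ i ∈ Finset.range (q - m),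
        Sm (q + 1) m i i (fun b c => ∑ x, Eu hF h1 x *
          ser (cor F 0 [hpow X x, (c, q - 1 - m - i), (b, m)])) := by
      rw [← sub_eq_zero, ← neg_eq_zero, ← h]
      simp only [Finset.mul_sum]
      rw [neg_sub, ← Finset.sum_sub_distrib]
      refine Finset.sum_congr rfl fun m hm => ?_
      have hm' := Finset.mem_range.1 hm
      rw [← Finset.sum_sub_distrib]
      refine Finset.sum_congr rfl fun i hi => ?_
      have hi' := Finset.mem_range.1 hi
      rw [euler_sum hF h1 (q + 1) m i (q - 1 - m - i) q (by omega)]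
      ring
    linear_combination cs X (1 / 2) * e2
  rw [e1, ← mul_neg, ← Finset.sum_neg_distrib]
  congr 1
  refine Finset.sum_congr rfl fun m hm => ?_
  have hm' := Finset.mem_range.1 hm
  rw [str_neg_pow, aK_eq hF h1 q m hm', Finset.sum_mul, Finset.mul_sum, map_sum, Finset.mul_sum,
    ← Finset.sum_neg_distrib]
  refine Finset.sum_congr rfl fun i _ => ?_
  rw [E_eq hF h1 q m i, pow_succ]
  ring

end Vale.Agent.P269.G1.H660.Lp
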