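import Vale.Agent.P269.G1.Defs

/-! Graded vanishing of the structure constants (for [ZF]) -/

namespace Vale.Agent.P269.G1.H660.Lp

open Vale.Agent.P269.CI

variable (X : CompleteIntersection)

theorem c1_prim_left (v : X.Prim) (b : Ix X) : c1 X (Sum.inr v) b = 0 := by
  unfold c1 hmul
  simp

theorem c1_prim_right (a : Ix X) (v : X.Prim) : c1 X a (Sum.inr v) = 0 := by
  unfold c1 hmul
  rcases a with a | a <;> simp

theorem c1_mu {a b : Ix X} (h : c1 X a b ≠ 0) : mu X b = mu X a + 1 := by
  rcases a with a | a
  · rcases b with b | b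
    · unfold c1 hmul at h
      have h2 : (b : ℕ) = a + 1 := by
        by_contra h3
        simp [h3] at h
      show ((b : ℕ) : ℂ) - (X.dim : ℂ) / 2 = ((a : ℕ) : ℂ) - (X.dim : ℂ) / 2 + 1
      rw [h2]
      push_cast
      ring
    · exact absurd (c1_prim_right X _ b) h
  · exact absurd (c1_prim_left X a b) h

theorem c1pow_zero (a b : Ix X) : c1pow X 0 a b = if a = b then 1 else 0 := by
  unfold c1pow
  rw [pow_zero, Matrix.one_apply]

theorem c1pow_succ (i : ℕ) (a b : Ix X) :
    c1pow X (i + 1) a b = ∑ c, c1pow X i a c * c1 X c b := by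
  unfold c1pow
  rw [pow_succ, Matrix.mul_apply]
  rfl

theorem c1pow_succ' (i : ℕ) (a b : Ix X) :
    c1pow X (i + 1) a b = ∑ c, c1 X a c * c1pow X i c b := by
  unfold c1pow
  rw [pow_succ', Matrix.mul_apply]
  rfl

theorem c1pow_prim_left (i : ℕ) (v : X.Prim) (b : Ix X) :
    c1pow X (i + 1) (Sum.inr v) b = 0 := by
  rw [c1pow_succ']
  exact Finset.sum_eq_zero fun c _ => by rw [c1_prim_left, zero_mul]

theorem c1pow_mu {i : ℕ} {a b : Ix X} (h : c1pow X i a b ≠ 0) : mu X b = mu X a + i := by
  induction i generalizing b with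
  | zero =>
    rw [c1pow_zero] at h
    have : a = b := by
      by_contra h3
      exact h (if_neg h3)
    rw [this]
    simp
  | succ i ih =>
    rw [c1pow_succ] at h
    obtain ⟨c, _, hc⟩ := Finset.exists_ne_zero_of_sum_ne_zero h
    have h1 := ih (left_ne_zero_of_mul hc)
    have h2 := c1_mu X (right_ne_zero_of_mul hc)
    rw [h2, h1]
    push_cast
    ring

theorem c1pow_amb_prim (i : ℕ) (a : Fin (X.dim + 1)) (v : X.Prim) :
    c1pow X i (Sum.inl a) (Sum.inr v) = 0 := by
  rcases i with _ | i
  · rw [c1pow_zero, if_neg (by simp)]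
  · rw [c1pow_succ]
    exact Finset.sum_eq_zero fun c _ => by rw [c1_prim_right, mul_zero]

theorem c1pow_prim_amb (i : ℕ) (v : X.Prim) (a : Fin (X.dim + 1)) :
    c1pow X i (Sum.inr v) (Sum.inl a) = 0 := by
  rcases i with _ | i
  · rw [c1pow_zero, if_neg (by simp)]
  · exact c1pow_prim_left X i v _

theorem pairing_mu {a b : Ix X} (h : pairing X a b ≠ 0) : mu X a + mu X b = 0 := by
  rcases a with a | a
  · rcases b with b | b
    · unfold pairing at h
      have h2 : (a : ℕ) + b = X.dim := by
        by_contra h3
        simp [h3] at h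
      unfold mu hp
      have : ((a : ℕ) : ℂ) + (b : ℕ) = X.dim := by exact_mod_cast h2
      linear_combination this
    · exact absurd rfl h
  · rcases b with b | b
    · exact absurd rfl h
    · have h2 := X.form_hodge a b h
      unfold mu hp
      have : ((X.hodgeP a : ℕ) : ℂ) + (X.hodgeP b : ℕ) = X.dim := by exact_mod_cast h2
      linear_combination this

theorem isUnit_form : IsUnit (Matrix.of X.form).det := isUnit_iff_ne_zero.2 X.form_nondeg

/-- the inverse of the form has the same support as the form -/
theorem formInv_hodge {a b : X.Prim} (h : (Matrix.of X.form)⁻¹ a b ≠ 0) :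
    (X.hodgeP a : ℂ) + X.hodgeP b = X.dim := by
  classical
  set M := Matrix.of X.form with hM
  set D : Matrix X.Prim X.Prim ℂ := Matrix.diagonal fun a => (X.hodgeP a : ℂ) with hD
  have e1 : D * M + M * D = (X.dim : ℂ) • M := by
    ext x y
    rw [Matrix.add_apply, hD, Matrix.diagonal_mul, Matrix.mul_diagonal, Matrix.smul_apply,
      smul_eq_mul]
    by_cases hxy : M x y = 0
    · rw [hxy]; ring
    · have h2 := X.form_hodge x y hxy
      have : ((X.hodgeP x : ℕ) : ℂ) + (X.hodgeP y : ℕ) = X.dim := by exact_mod_cast h2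
      linear_combination (M x y) * this
  have e2 : M⁻¹ * D + D * M⁻¹ = (X.dim : ℂ) • M⁻¹ := by
    have h3 : M⁻¹ * (D * M + M * D) * M⁻¹ = M⁻¹ * ((X.dim : ℂ) • M) * M⁻¹ := by rw [e1]
    rw [mul_add, add_mul, Matrix.mul_smul, Matrix.smul_mul, Matrix.nonsing_inv_mul _ (isUnit_form X),
      Matrix.one_mul, mul_assoc, mul_assoc, Matrix.mul_nonsing_inv _ (isUnit_form X), mul_one,
      ← mul_assoc M⁻¹ M, Matrix.nonsing_inv_mul _ (isUnit_form X), one_mul] at h3
    exact h3
  have e3 := congrFun (congrFun e2 a) b
  rw [Matrix.add_apply, hD, Matrix.diagonal_mul, Matrix.mul_diagonal, Matrix.smul_apply,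
    smul_eq_mul] at e3
  have e4 : ((X.hodgeP a : ℂ) + X.hodgeP b - X.dim) * M⁻¹ a b = 0 := by linear_combination e3
  rcases mul_eq_zero.1 e4 with h4 | h4
  · linear_combination h4
  · exact absurd h4 h

theorem pairingInv_mu {a b : Ix X} (h : pairingInv X a b ≠ 0) : mu X a + mu X b = 0 := by
  rcases a with a | a
  · rcases b with b | b
    · unfold pairingInv at h
      have h2 : (a : ℕ) + b = X.dim := by
        by_contra h3
        simp [h3] at h
      unfold mu hp
      have : ((a : ℕ) : ℂ) + (b : ℕ) = X.dim := by exact_mod_cast h2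
      linear_combination this
    · exact absurd rfl h
  · rcases b with b | b
    · exact absurd rfl h
    · have h2 := formInv_hodge X h
      unfold mu hp
      linear_combination h2

/-- `∑ b, η^{ab} form(a,b) = ±1` -/
theorem sum_formInv (a : X.Prim) :
    ∑ b, pairingInv X (Sum.inr a) (Sum.inr b) * X.form a b = (-1) ^ X.dim := by
  have h := congrFun (congrFun (Matrix.nonsing_inv_mul _ (isUnit_form X)) a) a
  rw [Matrix.mul_apply, Matrix.one_apply_eq] at h
  calc ∑ b, pairingInv X (Sum.inr a) (Sum.inr b) * X.form a b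
      = ∑ b, (-1) ^ X.dim * ((Matrix.of X.form)⁻¹ a b * (Matrix.of X.form) b a) := by
        refine Finset.sum_congr rfl fun b _ => ?_
        rw [X.form_symm a b]
        change (Matrix.of X.form)⁻¹ a b * _ = _ * ((Matrix.of X.form)⁻¹ a b * X.form b a)
        ring
    _ = (-1) ^ X.dim := by rw [← Finset.mul_sum, h, mul_one]

/-- multiplication by `c_1` is self-adjoint -/
theorem pInv_c1 (a d : Ix X) :
    ∑ b, pairingInv X a b * c1 X b d = ∑ b, pairingInv X b d * c1 X b a := by
  rcases a with a | a
  · rcases d with d | d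
    · rw [Fintype.sum_sum_type, Fintype.sum_sum_type]
      have z1 : ∑ v : X.Prim, pairingInv X (Sum.inl a) (Sum.inr v) * c1 X (Sum.inr v) (Sum.inl d) = 0 :=
        Finset.sum_eq_zero fun v _ => by rw [c1_prim_left, mul_zero]
      have z2 : ∑ v : X.Prim, pairingInv X (Sum.inr v) (Sum.inl d) * c1 X (Sum.inr v) (Sum.inl a) = 0 :=
        Finset.sum_eq_zero fun v _ => by rw [c1_prim_left, mul_zero]
      rw [z1, z2, add_zero, add_zero]
      unfold pairingInv c1 hmul
      simp only
      have ha := a.2
      have hd := d.2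
      by_cases h : (a : ℕ) + d = X.dim + 1
      · have e1 : ∑ x : Fin (X.dim + 1), (if (a : ℕ) + x = X.dim then (deg X)⁻¹ else 0) *
            ((index X : ℂ) * if (d : ℕ) = x + 1 then 1 else 0) = (deg X)⁻¹ * index X := by
          rw [Finset.sum_eq_single (⟨X.dim - a, by omega⟩ : Fin (X.dim + 1))]
          · rw [if_pos (by show (a : ℕ) + (X.dim - a) = X.dim; omega),
              if_pos (by show (d : ℕ) = X.dim - a + 1; omega)]
            ring
          · intro x _ hx
            rw [if_neg, zero_mul]
            intro h3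
            apply hx
            apply Fin.ext
            show (x : ℕ) = X.dim - a
            omega
          · simp
        have e2 : ∑ x : Fin (X.dim + 1), (if (x : ℕ) + d = X.dim then (deg X)⁻¹ else 0) *
            ((index X : ℂ) * if (a : ℕ) = x + 1 then 1 else 0) = (deg X)⁻¹ * index X := by
          rw [Finset.sum_eq_single (⟨X.dim - d, by omega⟩ : Fin (X.dim + 1))]
          · rw [if_pos (by show (X.dim - d) + (d : ℕ) = X.dim; omega),
              if_pos (by show (a : ℕ) = X.dim - d + 1; omega)]
            ring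
          · intro x _ hx
            rw [if_neg, zero_mul]
            intro h3
            apply hx
            apply Fin.ext
            show (x : ℕ) = X.dim - d
            omega
          · simp
        rw [e1, e2]
      · rw [Finset.sum_eq_zero, Finset.sum_eq_zero]
        · intro x _
          by_cases h3 : (x : ℕ) + d = X.dim
          · rw [if_neg (by omega : ¬ (a : ℕ) = x + 1)]; ring
          · rw [if_neg h3]; ring
        · intro x _
          by_cases h3 : (a : ℕ) + x = X.dim
          · rw [if_neg (by omega : ¬ (d : ℕ) = x + 1)]; ring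
          · rw [if_neg h3]; ring
    · rw [Finset.sum_eq_zero, Finset.sum_eq_zero]
      · rintro (b | b) _
        · rw [show pairingInv X (Sum.inl b) (Sum.inr d) = 0 from rfl, zero_mul]
        · rw [c1_prim_left, mul_zero]
      · intro b _; rw [c1_prim_right, mul_zero]
  · rw [Finset.sum_eq_zero, Finset.sum_eq_zero]
    · intro b _; rw [c1_prim_right, mul_zero]
    · rintro (b | b) _
      · rw [show pairingInv X (Sum.inr a) (Sum.inl b) = 0 from rfl, zero_mul]
      · rw [c1_prim_left, mul_zero]

end Vale.Agent.P269.G1.H660.Lp
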