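import Vale.Agent.P269.G1.H660.Loop1

/-! The supertrace of the products of the operators (for [ZF]) -/

namespace Vale.Agent.P269.G1.H660.Lp

open Finset.HasAntidiagonal (antidiagonal)
open Vale.Agent.P269.CI

variable {X : CompleteIntersection} {F : ℕ → ℕ → List (Ins X) → ℂ}

variable (hF : IsGW X F) (h1 : IsGenusOne F)

theorem fmu_eb (g : ℂ → ℂ) (a : Fin (X.dim + 1)) :
    ((fmu hF h1 g).1 (eb hF h1 a) : AA hF h1) = cs X (g (mu X (Sum.inl a))) • eb hF h1 a := by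
  funext k
  refine (mkEnd_eb hF h1 _ a k).trans ?_
  change _ = cs X (g (mu X (Sum.inl a))) * eb hF h1 a k
  rw [eb_apply]
  by_cases h : a = k
  · rw [if_pos h, if_pos h.symm, mul_one]; rfl
  · rw [if_neg h, if_neg (Ne.symm h), mul_zero]

theorem Rpow_eb (i : ℕ) (a k : Fin (X.dim + 1)) :
    (((Rcl hF h1) ^ i).1 (eb hF h1 a) : AA hF h1) k = cs X (c1pow X i (Sum.inl a) (Sum.inl k)) := by
  induction i generalizing k with
  | zero =>
    rw [c1pow_zero]
    change (eb hF h1 a : AA hF h1) k = _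
    rw [eb_apply]
    by_cases h : k = a
    · rw [if_pos h, if_pos (by rw [h]), map_one]
    · rw [if_neg h, if_neg (by intro h2; exact h (Sum.inl_injective h2).symm), map_zero]
  | succ i ih =>
    rw [pow_succ', Prod.fst_mul]
    change (∑ j, (((Rcl hF h1) ^ i).1 (eb hF h1 a) : AA hF h1) j * cst X (c1 X (Sum.inl j) (Sum.inl k))) = _
    rw [c1pow_succ, Fintype.sum_sum_type, map_add, map_sum]
    have z : ∑ v : X.Prim, c1pow X i (Sum.inl a) (Sum.inr v) * c1 X (Sum.inr v) (Sum.inl k) = 0 :=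
      Finset.sum_eq_zero fun v _ => by rw [c1_prim_left, mul_zero]
    rw [z, map_zero, add_zero]
    refine Finset.sum_congr rfl fun j _ => ?_
    rw [ih j, map_mul]; rfl

theorem Rpow_eb' (i : ℕ) (a : Fin (X.dim + 1)) :
    (((Rcl hF h1) ^ i).1 (eb hF h1 a) : AA hF h1) =
      ∑ c, cs X (c1pow X i (Sum.inl a) (Sum.inl c)) • eb hF h1 c := by
  rw [← sum_bas hF h1 (((Rcl hF h1) ^ i).1 (eb hF h1 a))]
  refine Finset.sum_congr rfl fun c _ => ?_
  rw [Rpow_eb]

/-- the ambient part of the trace -/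
theorem trace_part (g : ℂ → ℂ) (i n m : ℕ) :
    LinearMap.trace (RR X) (AA hF h1) (CC hF h1 (Eu hF h1) *
      (SS hF h1 n * Rcl hF h1 ^ i * fmu hF h1 g * ST hF h1 m)).1 =
    ∑ a : Fin (X.dim + 1), ∑ b : Fin (X.dim + 1), ∑ c : Fin (X.dim + 1),
      cs X (g (mu X (Sum.inl a)) * pairingInv X (Sum.inl a) (Sum.inl b) *
        c1pow X i (Sum.inl a) (Sum.inl c)) *
        ∑ x, Eu hF h1 x * ser (cor F 0 [hpow X x, (Sum.inl c, n), (Sum.inl b, m)]) := by
  have e0 : (CC hF h1 (Eu hF h1) * (SS hF h1 n * Rcl hF h1 ^ i * fmu hF h1 g * ST hF h1 m)).1 =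
      ((CC hF h1 (Eu hF h1)).1 * ((SS hF h1 n).1 * (Rcl hF h1 ^ i).1 * (fmu hF h1 g).1)) *
        (ST hF h1 m).1 := by
    simp only [Prod.fst_mul, mul_assoc]
  rw [e0, LinearMap.trace_mul_comm, H819.trace_eq]
  refine Finset.sum_congr rfl fun a _ => ?_
  have e1 : (((ST hF h1 m).1 * ((CC hF h1 (Eu hF h1)).1 *
      ((SS hF h1 n).1 * (Rcl hF h1 ^ i).1 * (fmu hF h1 g).1))) (eb hF h1 a) : AA hF h1) =
      (ST hF h1 m).1 (∑ c, (cs X (g (mu X (Sum.inl a)) * c1pow X i (Sum.inl a) (Sum.inl c))) •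
        (Eu hF h1 * (SS hF h1 n).1 (eb hF h1 c))) := by
    change (ST hF h1 m).1 (Eu hF h1 * (SS hF h1 n).1 ((Rcl hF h1 ^ i).1 ((fmu hF h1 g).1
      (eb hF h1 a)))) = _
    rw [fmu_eb, map_smul, Rpow_eb', Finset.smul_sum, map_sum, Finset.mul_sum]
    congr 1
    refine Finset.sum_congr rfl fun c _ => ?_
    rw [smul_smul, map_smul, mul_smul_comm, ← map_mul]
  have e2 := congrFun e1 a
  refine e2.trans ?_
  rw [ST_apply]
  refine Finset.sum_congr rfl fun b _ => ?_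
  rw [pr_sum, Finset.mul_sum]
  refine Finset.sum_congr rfl fun c _ => ?_
  rw [pr_smul, euler_part, pi_symm b a]
  unfold pi'
  simp only [map_mul]
  ring

theorem Rpow_snd (i : ℕ) (v : X.Prim) : ((Rcl hF h1) ^ i).2 v =
    cs X (c1pow X i (Sum.inr v) (Sum.inr v)) := by
  rcases i with _ | i
  · rw [c1pow_zero, if_pos rfl, map_one]; rfl
  · rw [c1pow_prim_left, map_zero]
    rw [pow_succ, Prod.snd_mul]
    change _ * (0 : RR X) = 0
    rw [mul_zero]

theorem ST_snd (m : ℕ) (v : X.Prim) : (ST hF h1 m).2 v = (SS hF h1 m).2 v := by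
  rcases m with _ | m <;> rfl

theorem c1pow_prim_ne (i : ℕ) {v w : X.Prim} (h : v ≠ w) :
    c1pow X i (Sum.inr v) (Sum.inr w) = 0 := by
  rcases i with _ | i
  · rw [c1pow_zero, if_neg]
    intro h2
    exact h (Sum.inr_injective h2)
  · exact c1pow_prim_left X i v _

/-- the primitive part of the supertrace -/
theorem prim_part (g : ℂ → ℂ) (i n m : ℕ) :
    cst X ((-1) ^ X.dim) * ∑ v, (CC hF h1 (Eu hF h1) *
      (SS hF h1 n * Rcl hF h1 ^ i * fmu hF h1 g * ST hF h1 m)).2 v =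
    ∑ a : X.Prim, ∑ b : X.Prim, ∑ c : X.Prim,
      cs X (g (mu X (Sum.inr a)) * pairingInv X (Sum.inr a) (Sum.inr b) *
        c1pow X i (Sum.inr a) (Sum.inr c)) *
        ∑ x, Eu hF h1 x * ser (cor F 0 [hpow X x, (Sum.inr c, n), (Sum.inr b, m)]) := by
  rw [Finset.mul_sum]
  refine Finset.sum_congr rfl fun v _ => ?_
  have e1 : ∀ b c, ∑ x, Eu hF h1 x * ser (cor F 0 [hpow X x, (Sum.inr c, n), (Sum.inr b, m)]) =
      cs X (X.form c b) * ((SS hF h1 n).2 c * (SS hF h1 m).2 c * ∑ x, Eu hF h1 x * lamc h1 x) := by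
    intro b c
    rw [Finset.mul_sum, Finset.mul_sum]
    refine Finset.sum_congr rfl fun x _ => ?_
    rw [W_trr_prim hF h1 x c b n m, smul_cs]
    ring
  simp only [e1]
  have e2 : ∀ b, ∑ c, cs X (g (mu X (Sum.inr v)) * pairingInv X (Sum.inr v) (Sum.inr b) *
        c1pow X i (Sum.inr v) (Sum.inr c)) * (cs X (X.form c b) * ((SS hF h1 n).2 c *
          (SS hF h1 m).2 c * ∑ x, Eu hF h1 x * lamc h1 x)) =
      cs X (g (mu X (Sum.inr v)) * c1pow X i (Sum.inr v) (Sum.inr v)) *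
        ((SS hF h1 n).2 v * (SS hF h1 m).2 v * ∑ x, Eu hF h1 x * lamc h1 x) *
        cs X (pairingInv X (Sum.inr v) (Sum.inr b) * X.form v b) := by
    intro b
    rw [Finset.sum_eq_single v]
    · simp only [map_mul]; ring
    · intro c _ hc
      rw [c1pow_prim_ne i (Ne.symm hc), mul_zero, map_zero, zero_mul]
    · simp
  simp only [e2]
  rw [← Finset.mul_sum, ← map_sum, sum_formInv]
  change cs X ((-1) ^ X.dim) * ((∑ x, Eu hF h1 x * lamc h1 x) * ((SS hF h1 n).2 v *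
    (Rcl hF h1 ^ i).2 v * cs X (g (mu X (Sum.inr v))) * (ST hF h1 m).2 v)) = _
  rw [Rpow_snd, ST_snd, map_mul]
  ring

/-- splitting the triple sums -/
theorem sum3 (k : Ix X → ℂ) (i : ℕ) (f : Ix X → Ix X → Ix X → RR X) :
    ∑ a, ∑ b, ∑ c, cs X (k a * pairingInv X a b * c1pow X i a c) * f a b c =
    (∑ a : Fin (X.dim + 1), ∑ b : Fin (X.dim + 1), ∑ c : Fin (X.dim + 1),
      cs X (k (Sum.inl a) * pairingInv X (Sum.inl a) (Sum.inl b) *
        c1pow X i (Sum.inl a) (Sum.inl c)) * f (Sum.inl a) (Sum.inl b) (Sum.inl c)) +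
    ∑ a : X.Prim, ∑ b : X.Prim, ∑ c : X.Prim,
      cs X (k (Sum.inr a) * pairingInv X (Sum.inr a) (Sum.inr b) *
        c1pow X i (Sum.inr a) (Sum.inr c)) * f (Sum.inr a) (Sum.inr b) (Sum.inr c) := by
  rw [Fintype.sum_sum_type]
  congr 1
  · refine Finset.sum_congr rfl fun a _ => ?_
    rw [Fintype.sum_sum_type]
    have z : ∑ b : X.Prim, ∑ c, cs X (k (Sum.inl a) * pairingInv X (Sum.inl a) (Sum.inr b) *
        c1pow X i (Sum.inl a) c) * f (Sum.inl a) (Sum.inr b) c = 0 := by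
      refine Finset.sum_eq_zero fun b _ => Finset.sum_eq_zero fun c _ => ?_
      rw [show pairingInv X (Sum.inl a) (Sum.inr b) = 0 from rfl, mul_zero, zero_mul, map_zero,
        zero_mul]
    rw [z, add_zero]
    refine Finset.sum_congr rfl fun b _ => ?_
    rw [Fintype.sum_sum_type]
    have z2 : ∑ c : X.Prim, cs X (k (Sum.inl a) * pairingInv X (Sum.inl a) (Sum.inl b) *
        c1pow X i (Sum.inl a) (Sum.inr c)) * f (Sum.inl a) (Sum.inl b) (Sum.inr c) = 0 := by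
      refine Finset.sum_eq_zero fun c _ => ?_
      rw [c1pow_amb_prim, mul_zero, map_zero, zero_mul]
    rw [z2, add_zero]
  · refine Finset.sum_congr rfl fun a _ => ?_
    rw [Fintype.sum_sum_type]
    have z : ∑ b : Fin (X.dim + 1), ∑ c, cs X (k (Sum.inr a) *
        pairingInv X (Sum.inr a) (Sum.inl b) *
        c1pow X i (Sum.inr a) c) * f (Sum.inr a) (Sum.inl b) c = 0 := by
      refine Finset.sum_eq_zero fun b _ => Finset.sum_eq_zero fun c _ => ?_
      rw [show pairingInv X (Sum.inr a) (Sum.inl b) = 0 from rfl, mul_zero, zero_mul, map_zero,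
        zero_mul]
    rw [z, zero_add]
    refine Finset.sum_congr rfl fun b _ => ?_
    rw [Fintype.sum_sum_type]
    have z2 : ∑ c : Fin (X.dim + 1), cs X (k (Sum.inr a) * pairingInv X (Sum.inr a) (Sum.inr b) *
        c1pow X i (Sum.inr a) (Sum.inl c)) * f (Sum.inr a) (Sum.inr b) (Sum.inl c) = 0 := by
      refine Finset.sum_eq_zero fun c _ => ?_
      rw [c1pow_prim_amb, mul_zero, map_zero, zero_mul]
    rw [z2, zero_add]

/-- the supertrace -/
theorem str_part (g : ℂ → ℂ) (i n m : ℕ) :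
    strO hF h1 (CC hF h1 (Eu hF h1) *
      (SS hF h1 n * Rcl hF h1 ^ i * fmu hF h1 g * ST hF h1 m)) =
    ∑ a, ∑ b, ∑ c, cs X (g (mu X a) * pairingInv X a b * c1pow X i a c) *
        ∑ x, Eu hF h1 x * ser (cor F 0 [hpow X x, (c, n), (b, m)]) := by
  rw [sum3 (fun a => g (mu X a)) i (fun a b c =>
    ∑ x, Eu hF h1 x * ser (cor F 0 [hpow X x, (c, n), (b, m)])), ← trace_part hF h1 g i n m,
    ← prim_part hF h1 g i n m]
  rfl

end Vale.Agent.P269.G1.H660.Lp
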